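import Vale.Agent.P181.MN.Defs
import Vale.Agent.P181.MD.H809.Fin

/-!
# P181, MN (N5): a long third row, `b ≥ (1 + ε) a` (helper398)
-/

set_option autoImplicit false

namespace Vale.Agent.P181.MN.H398

open Vale.Agent.P181
open Vale.Agent.P181.T4 (ex)
open Vale.Agent.P181.H280 (plethMult)
open Vale.Agent.P181.PL (dn dn_succ)

theorem ev' (K δ : ℝ) (hK : 0 < K) (hδ : 0 < δ) (m : ℕ) :
    ∃ A0 : ℕ, ∀ a : ℕ, A0 ≤ a → K * (1 + Real.log a) ^ m ≤ (a : ℝ) ^ δ := by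
  obtain ⟨p, hp⟩ := exists_nat_ge (1 / δ)
  have hp0 : 0 < (p : ℝ) := lt_of_lt_of_le (by positivity) hp
  have hp1 : p ≠ 0 := by
    rintro rfl
    simp at hp0
  obtain ⟨A0, hA0⟩ := MD.H809.ev K hK m p
  refine ⟨max A0 1, fun a ha => ?_⟩
  have h1 := hA0 a ((le_max_left _ _).trans ha)
  have ha1 : (1 : ℝ) ≤ a := by exact_mod_cast (le_max_right _ _).trans ha
  have h2 : (a : ℝ) ≤ ((a : ℝ) ^ δ) ^ p := by
    rw [← Real.rpow_natCast, ← Real.rpow_mul (Nat.cast_nonneg _)]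
    conv_lhs => rw [← Real.rpow_one (a : ℝ)]
    apply Real.rpow_le_rpow_of_exponent_le ha1
    rw [div_le_iff₀ hδ] at hp
    linarith
  exact le_of_pow_le_pow_left₀ hp1 (Real.rpow_nonneg (Nat.cast_nonneg _) _) (h1.trans h2)

/-- **[N5]** -/
theorem nearLong (hL : LBN) (hG : GapN) (hP : PL.PolyS) : NearLong := by
  intro ε hε
  obtain ⟨K, a1, hK, hL⟩ := hL ε hε
  obtain ⟨δ, a2, hδ, hG⟩ := hG K hK
  obtain ⟨C, c, hC, hP⟩ := hP
  obtain ⟨A0, hA0⟩ := ev' C δ hC hδ c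
  refine ⟨δ, max (max a1 a2) (max A0 1), hδ, ?_⟩
  intro a b n lam ha hab hx
  have ha1 : a1 ≤ a := ((le_max_left _ _).trans (le_max_left _ _)).trans ha
  have ha2 : a2 ≤ a := ((le_max_right _ _).trans (le_max_left _ _)).trans ha
  have ha3 : A0 ≤ a := ((le_max_left _ _).trans (le_max_right _ _)).trans ha
  have ha4 : 1 ≤ a := ((le_max_right _ _).trans (le_max_right _ _)).trans ha
  have hev := hA0 a ha3
  by_cases hb : (b : ℝ) ≤ (a : ℝ) ^ (1 + δ)
  · refine MD.H809.trim lam fun k mu hmu1 hmu2 _ hka hdn => ?_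
    have hex : ∀ i, ex mu i = ex lam i := by
      intro i
      have h1 := dn_succ mu i
      have h2 := dn_succ lam i
      rw [hdn, hdn] at h1
      omega
    have hab' : a ≤ b := by
      have h1 : (a : ℝ) ≤ b := by
        have : (0 : ℝ) ≤ ε * a := by positivity
        linarith
      exact_mod_cast h1
    obtain ⟨h1, m, g, h3, h4, h5, h6, h7⟩ := hG a b k mu ha2 hab' hb hka hmu1 hmu2 (by
      rw [hex]; exact hx)
    obtain ⟨k, rfl⟩ : ∃ k', k = k' + 2 := ⟨k - 2, by omega⟩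
    exact hL a b k m g mu ha1 hab h1 hka hmu1 hmu2 h3 h4 h5 h6 h7
  · push Not at hb
    refine hP a b ?_ n lam
    have ha0 : (0 : ℝ) < a := by exact_mod_cast ha4
    calc C * a * (1 + Real.log a) ^ c = a * (C * (1 + Real.log a) ^ c) := by ring
      _ ≤ a * (a : ℝ) ^ δ := mul_le_mul_of_nonneg_left hev ha0.le
      _ = (a : ℝ) ^ (1 + δ) := by rw [Real.rpow_add ha0, Real.rpow_one]
      _ ≤ b := hb.le

end Vale.Agent.P181.MN.H398
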